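import Vale.Agent.P270F.Tk.Hdg

/-!
# Mixed products of a nef class and a nef class of a line bundle
-/

open scoped Topology
open Set Filter Function
open Vale.Agent.P272.K Vale.Agent.P285.H281.FD Vale.Agent.P281Z Vale.Agent.P280Z
open Vale.Agent.P285W Vale.Agent.P285W.J Vale.Agent.P285W.Bs Vale.Agent.P285S.B2
open Vale.Agent.P285S.E3 (T1)
open Vale.Agent.P285S.E3.HilH

noncomputable section

namespace Vale.Agent.P270F

namespace BrH

open Vale.Agent.P270F.Tk

variable {T : CT} (hT : T.OK)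

include hT

theorem mix0 (c d : ℕ) : ∀ (V : Mf (c + d + 2)) (l : List (T.H V)) (g u v : T.H V), Cp V →
    l.length = d → (∀ x ∈ l, Nq T V x) → Nf T V g → T1 T V u → T1 T V v →
    0 < T.int V (u * u * (l.prod * g ^ c)) →
    T.int V (u * u * (l.prod * g ^ c)) * T.int V (v * v * (l.prod * g ^ c)) ≤
      T.int V (u * v * (l.prod * g ^ c)) ^ 2 := by
  induction d with
  | zero =>
    intro V l g u v hV hl _ hg hu hv
    rw [List.length_eq_zero_iff.1 hl]
    simpa using nef hT (d := c) hV hg hu hv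
  | succ d ih =>
    intro V l g u v hV hl h hg hu hv h0
    obtain ⟨w, l, rfl⟩ := List.exists_cons_of_length_eq_add_one hl
    obtain ⟨a, ha, A, lA, -, rfl⟩ := ample hT hV.prj
    obtain ⟨hw, W, lW, rfl⟩ := h w (by simp)
    rw [List.prod_cons, mul_assoc _ l.prod] at h0 ⊢
    obtain ⟨y, hy⟩ : ∃ y, y = l.prod * g ^ c := ⟨_, rfl⟩
    rw [← hy] at h0 ⊢
    have e : ∀ (c : T.H V) (ε : ℝ), T.int V (c * ((T.c1 V W + ε • T.c1 V A) * y)) =
        ε * T.int V (c * (T.c1 V A * y)) + T.int V (c * (T.c1 V W * y)) := fun c ε => by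
      rw [add_mul, mul_add, smul_mul_assoc, mul_smul_comm, map_add, map_smul, add_comm]
      rfl
    have s : ∀ c : T.H V, Tendsto (fun k : ℕ => T.int V (c * ((T.c1 V W +
        (1 / ((k : ℝ) + 1)) • T.c1 V A) * y))) atTop
          (𝓝 (T.int V (c * (T.c1 V W * y)))) := fun c => by
      simp only [e]
      simpa only [zero_mul, zero_add] using (tendsto_one_div_add_atTop_nhds_zero_nat.mul_const
        (T.int V (c * (T.c1 V A * y)))).add_const (T.int V (c * (T.c1 V W * y)))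
    refine le_of_tendsto_of_tendsto ((s _).mul (s _)) ((s _).pow 2) ?_
    filter_upwards [(s _).eventually (lt_mem_nhds h0)] with k hk
    have l1 := lb_mul lA (lb_pow lW (k + 1))
    have c1 : T.c1 V (A.mul (W.pow (k + 1))) = T.c1 V A + ((k + 1 : ℕ) : ℝ) • T.c1 V W := by
      rw [hT.c1.mul V _ _ lA (lb_pow lW _), hT.c1.pow V _ _ lW]
    have k1 := c1 ▸ kc_nf_add hT ha (nf_smul hT (k + 1 : ℕ).cast_nonneg hw)
    obtain ⟨r, hr⟩ := DescX.bpf l1 (hT.kp V _ l1 k1)
    have c2 := hT.c1.pow V _ (r + 1) l1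
    obtain ⟨S, i, hi, cS, -, q⟩ : ∃ (S : Mf (c + d + 2)) (i : S.X → V.X)
        (hi : HolM (c + d + 2) (c + (d + 1) + 2) i), Cp S ∧ T.Kc S (T.pull hi _) ∧
        ∀ z, T.int V (_ ^ 1 * z) = T.int S (T.pull hi z) :=
      lef hT (c + d + 1) 1 V _ hV (c2 ▸ hT.po.smul _ (by positivity) k1)
        ⟨_, lb_pow l1 _, hr _ r.le_succ, rfl⟩
    have k0 : (0 : ℝ) < ((r + 1 : ℕ) : ℝ) * (k + 1) := by positivity
    have q' : ∀ a b, T.int S (T.pull hi a * T.pull hi b *
        ((l.map (T.pull hi)).prod * T.pull hi g ^ c)) =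
        ((r + 1 : ℕ) : ℝ) * (k + 1) * T.int V (a * b * ((T.c1 V W +
          (1 / ((k : ℝ) + 1)) • T.c1 V A) * y)) := fun a b => by
      rw [← map_list_prod, ← map_pow, ← map_mul, ← map_mul, ← map_mul, ← hy, ← q, pow_one, c2, c1,
        e, mul_left_comm]
      simp only [add_mul, mul_add, smul_mul_assoc, mul_smul_comm, map_add, map_smul, smul_eq_mul,
        Nat.cast_succ k]
      field_simp
    have := ih S (l.map (T.pull hi)) _ _ _ cS (by simpa using hl) (fun x hx => by
      obtain ⟨y, k, rfl⟩ := List.mem_map.1 hx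
      exact (h y (by simp [k])).pull hT hi) (nf_pull hT hi hg) (t1_pull hT hu hi)
      (t1_pull hT hv hi) (by rw [q']; exact mul_pos k0 hk)
    rw [q', q', q'] at this
    refine le_of_mul_le_mul_left ?_ (mul_pos k0 k0)
    linarith

variable {n : ℕ} {V : Mf n} {y g u v p t : T.H V}

/-- the mixed index inequality with a power of one more nef class -/
theorem mix (c : ℕ) (hV : Cp V) (hy : Mz T V y) (hg : Nf T V g) (hu : T1 T V u) (hv : T1 T V v)
    (h0 : 0 < T.int V (u * u * (y * g ^ c))) :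
    T.int V (u * u * (y * g ^ c)) * T.int V (v * v * (y * g ^ c)) ≤
      T.int V (u * v * (y * g ^ c)) ^ 2 := by
  obtain ⟨l, h, rfl⟩ := Submonoid.exists_list_of_mem_closure hy
  obtain ⟨d, e⟩ : ∃ d, l.length = d := ⟨_, rfl⟩
  obtain rfl : n = c + d + 2 := by_contra fun k => h0.ne' (dg_int hT
    (dg_mul hT (dg_mul hT hu.2 hu.2) (dg_mul hT (dg_list hT l h) (dg_pow hT (nf_dg hT hg) c)))
    (by omega))
  exact mix0 hT _ _ V l g u v hV e h hg hu hv h0

/-- the kernel -/
theorem ker (c : ℕ) (hV : Cp V) (hy : Mz T V y) (hg : Nf T V g) (hp : T1 T V p) (hv : T1 T V v)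
    (ht : T1 T V t) (h0 : 0 < T.int V (p * p * (y * g ^ c)))
    (h1 : T.int V (p * v * (y * g ^ c)) = 0) (h2 : 0 ≤ T.int V (v * v * (y * g ^ c))) :
    T.int V (v * t * (y * g ^ c)) = 0 := by
  have mx := fun w (hw : T1 T V w) => mix hT c hV hy hg hp hw h0
  generalize y * g ^ c = y at *
  have h3 : T.int V (v * v * y) = 0 := h2.antisymm' (by
    have := mx _ hv
    rw [h1] at this
    nlinarith)
  by_contra c
  have k : ∀ s : ℝ, T.int V (p * p * y) * (2 * s * T.int V (v * t * y) + T.int V (t * t * y)) ≤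
      T.int V (p * t * y) ^ 2 := fun s => by
    have := mx _ (t1 hT s 1 v t hv ht)
    have e : (s • v + (1 : ℝ) • t) * (s • v + (1 : ℝ) • t) * y =
        (s * s) • (v * v * y) + (2 * s) • (v * t * y) + t * t * y := by
      simp only [Algebra.smul_def, map_mul, map_ofNat, map_one]
      ring
    rw [e, one_smul, mul_add p, add_mul, mul_smul_comm, smul_mul_assoc] at this
    simpa only [map_add, map_smul, smul_eq_mul, h1, h3, mul_zero, zero_add] using this
  generalize T.int V (p * p * y) = A, T.int V (p * t * y) = B, T.int V (v * t * y) = D,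
    T.int V (t * t * y) = E at *
  have := k ((B ^ 2 / A + 1 - E) / (2 * D))
  rw [show A * (2 * ((B ^ 2 / A + 1 - E) / (2 * D)) * D + E) = B ^ 2 + A by
    field_simp
    ring] at this
  linarith

variable {l α : T.H V} {ν : ℕ}

/-- all mixed products are nonzero -/
theorem all (hV : Cp V) (hl : Nq T V l) (ha : Nf T V α) {μ : ℕ} (h1 : ¬ Zr T V (l ^ ν))
    (h2 : ¬ Zr T V (α ^ μ)) : ∀ k, k ≤ ν → ∀ i, i + k ≤ μ → ¬ Zr T V (α ^ i * l ^ k) := by
  obtain ⟨a, ka, ba⟩ := ample hT hV.prj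
  have na := kc_nf hT ka
  have hn := nu_le hT ha h2
  have dg : ∀ i k, T.Dg V (i + k) (α ^ i * l ^ k) := fun i k =>
    dg_mul hT (dg_pow hT (nf_dg hT ha) i) (dg_pow hT (nf_dg hT hl.1) k)
  have mn : ∀ i k, Mn T V (α ^ i * l ^ k) := fun i k => (ha.mn.pow i).mul (hl.1.mn.pow k)
  intro k
  induction k with
  | zero => exact fun _ i hi => by simpa using nz_le ha h2 hi
  | succ k ihk =>
    intro hk i
    induction i with
    | zero => exact fun _ => by simpa using nz_le hl.1 h1 hk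
    | succ i ihi =>
      intro hi c
      obtain ⟨j, hj⟩ := Nat.exists_eq_add_of_le (show i + 2 + k ≤ n by omega)
      have m := (hl.mz.pow k).mul ((nq_bf hT ba).mz.pow j)
      refine ihi (by omega) (zr_dm hT na (dm_kc ka) (mn _ _) (dg _ _) (j := j + 1) (by omega) ?_)
      rw [← ker hT i hV m ha (nf_t1 hT ha) (hl.t1 hT) (nf_t1 hT na)
        ((pos_dm hT na (dm_kc ka) (mn _ _) (dg (i + 2) k) hj.symm
          (ihk (by omega) _ (by omega))).trans_eq (by congr 1; ring))
        (by rw [← c _ (na.mn.pow j)]; congr 1; ring)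
        (mn_int hT ((hl.1.mn.mul hl.1.mn).mul (m.mn.mul (ha.mn.pow i))))]
      congr 1
      ring

end BrH

/-- **BR** -/
theorem br {T : CT} (hT : T.OK) {n ν : ℕ} {V : Mf n} {l α : T.H V} (hV : Cp V)
    (hl : Tk.Nq T V l) (ha : Nf T V α) (h1 : ¬ Zr T V (l ^ ν)) (h2 : ¬ Zr T V (α ^ (ν + 1))) :
    ¬ Zr T V (α * l ^ ν) := by
  simpa using BrH.all hT hV hl ha h1 h2 ν le_rfl 1 (by omega)

end Vale.Agent.P270F
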