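import Vale.Agent.P270F.Mg.Defs
import Vale.Agent.P285S.Tp.Nfp
import Vale.Agent.P285W.J.Top
import Vale.Agent.P285W.J.PushA
import Vale.Agent.P285W.J.Scale

/-!
# P270F: trivial curves on surfaces
-/

open Set
open Vale.Agent.P272.K Vale.Agent.P285.H281.FD Vale.Agent.P281Z Vale.Agent.P280Z
open Vale.Agent.P277.HD (pull)
open Vale.Agent.P285N Vale.Agent.P285W.J Vale.Agent.P285W.Bs
open Vale.Agent.P270G (Cw Nl ForP SF1 SF2 RGN NZU NUU)

namespace Vale.Agent.P270F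

/-- **C12** -/
def C12 : Prop := ForP 2 fun T _ _ _ A m N => ∀ L : Bd A.Z.X, Cw A m N → IsLB 2 L → Tp.Nf A.Z L →
  T.int A.Z (T.c1 A.Z L ^ 2) = 0 → (∀ k, m k < 0 → Nl T A k (T.c1 A.Z L)) →
  ¬ Neg 2 (Tr T A.Z (T.c1 A.Z L))

/-- a free class which is killed by `l` vanishes -/
theorem free0 (nt : NT) {T : CT} (hT : T.OK) {V : Mf 2} (cV : Cp V) {l h : T.H V} (nl : Nf T V l)
    (ng : Neg 2 (Tr T V l)) (bf : Bf T V h) (h0 : T.int V (l * h) = 0) : h = 0 := by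
  refine hT.ho.pd V cV.prj.kah h fun b => ?_
  rw [← hT.rg.pr_sum V b, Finset.mul_sum, map_sum]
  refine Finset.sum_eq_zero fun k _ => ?_
  have hb : T.Dg V k (T.pr V k b) := by rw [CT.Dg, hT.rg.pr_pr, if_pos rfl]
  by_cases e : k = 1
  · subst e
    have := nt T hT 2 V l _ nl hb 2 1 V _ holM_id h rfl cV.conn ng (pow_one h ▸ mb_pow bf 1)
      (by rwa [hT.rg.pull_id])
    rwa [hT.rg.pull_id, mul_comm] at this
  · exact dg_int hT (dg_mul hT (nf_dg hT (bf_nf hT bf)) hb) (by omega)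

theorem c12_of (nt : NT) (h1 : Mg.MM1) (h2 : SF1) (h3 : SF2) (h4 : RGN) (h5 : NZU) (h6 : NUU) :
    C12 := by
  intro T hT κ ι _ A m N L cw lL nL sq ng tr
  have cA : Cp A.Z := ⟨cw.ok.conn, cw.ok.prj⟩
  have := cA.conn
  have nl := nf_of hT cA.prj lL nL
  rcases h1 1 (by omega) T hT κ ι A m N _ cw nl.mn (nf_dg hT nl) ng with ⟨C, hC⟩ |
    ⟨κ', ι', _, B, m', N', r, Λ, π, S, hπ, k⟩
  · have cB : Cp C.B.Z := ⟨hC.cw.ok.conn, hC.cw.ok.prj⟩
    have := cB.conn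
    have hw := hC.md
    have e := hT.c1.pull hw.hol L lL
    obtain ⟨ρ, r1, -⟩ := Ps.fub1 hT cA.conn cA.prj.kah hw.hol
    have s2 : P270G.S2 T C.B C.m C.N (pull C.π L) C.Λ := ⟨hC.cw, hw.hol.lb lL,
      P285S.Tp.nf_comp hw.hol cA.prj lL nL, by rw [e, ← map_pow, r1, sq, mul_zero], hC.fb,
      fun j hj => ⟨by
        have := hC.neg j hj
        simpa using h4 1 T hT _ _ C.B C.m C.N _ C.Λ C.Q j 1 0 hC.cw.ok hC.fb hC.lbQ hC.nfQ hC.rig
          (by omega) rfl, fun O σ hO => by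
        rw [e]
        refine h5 1 T hT κ ι A m N C.B.Z C.π _ hw _ O σ cw.ok cB.prj nl.mn (nf_dg hT nl) hO.lb
          hO.sec ((P277Z.Slc.Dv.dense_compl hO.ex).mono fun x k a ha =>
            mt (hO.leq a x ha).mem.1 k) fun y hy => .inr ((hC.sp y).2 ⟨j, hC.neg j hj, ?_⟩)
        by_contra c
        exact hy fun a ha => mt (hO.leq a y ha).mem.1 c⟩⟩
    obtain ⟨a, a0, ha⟩ := h2 T hT _ _ C.B C.m C.N _ _ s2
    obtain ⟨W, p, S, hp, c, pW, c0, bf⟩ := h3 T hT _ _ C.B C.m C.N _ _ a s2 a0 ha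
    have cW : Cp W := ⟨hp.conn, pW⟩
    have n2 := nf_pull hT hp.hol (e ▸ nf_pull hT hw.hol nl)
    have t2 := h6.tr T hT 2 _ W p S hp _ (e ▸ h6.tr T hT 2 _ _ _ _ hw _ tr)
    obtain ⟨ρ', r2, -⟩ := Ps.fub1 hT cB.conn cB.prj.kah hp.hol
    have z := (smul_eq_zero_iff_right c0.ne').1 (free0 nt hT cW n2 t2 bf (by
      rw [mul_smul_comm, map_smul, ← map_mul, r2, ← pow_two, s2.sq, mul_zero, smul_zero]))
    obtain ⟨H, lH, pH⟩ := pW
    obtain ⟨j, j0, hj⟩ := ScaleX.ex_bpf lH pH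
    have z2 := free0 nt hT cW n2 t2 ⟨_, lb_pow lH j, hj, rfl⟩ (by rw [z, zero_mul, map_zero])
    rw [hT.c1.pow W H j lH, smul_eq_zero_iff_right (Nat.cast_pos.2 j0).ne'] at z2
    have := cW.conn
    simpa [z2] using kc_pos hT (hT.c1.pos W H lH pH)
  · have e := hT.c1.pow B.Z B.P r k.ok.lb
    have z := free0 nt hT ⟨k.ok.conn, k.ok.prj⟩ (nf_pull hT hπ.hol nl)
      (h6.tr T hT 2 _ _ π S hπ _ tr) ⟨_, lb_pow k.ok.lb r, k.bpf, rfl⟩
      (by rw [e, mul_smul_comm, map_smul, mul_comm, k.nul, smul_zero])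
    rw [e, smul_eq_zero_iff_right (Nat.cast_pos.2 k.pos).ne'] at z
    exact k.ne z

end Vale.Agent.P270F
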