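import Vale.Agent.P270F.C12
import Vale.Agent.P270F.Mg.All

/-!
# P270F: trivial curves on surfaces, with no hypotheses
-/

open Vale.Agent.P270G

namespace Vale.Agent.P270F

theorem c12 : C12 :=
  c12_of (P285W.J.nt_of P285W.Ct.cuts) Mg.mm1 (sf1_of rig2 topb kxc P285W.Bs.o1 P285W.Ct.push)
    (sf2_of up fbu nzu rig2 topb sa2) rgn nzu nuu

end Vale.Agent.P270F
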