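import Vale.Agent.P270F.Tg.Defs
import Vale.Agent.P270G.End
import Vale.Agent.P270G.End0
import Vale.Agent.P285S.At.Defs
import Vale.Agent.P285S.Ob.Br

/-!
# P270F: the end of the proof on the last model, in dimension at most four
-/

open Set
open Vale.Agent.P272.K Vale.Agent.P285.H281.FD Vale.Agent.P281Z Vale.Agent.P280Z
open Vale.Agent.P285N Vale.Agent.P285W Vale.Agent.P285W.J Vale.Agent.P285W.Bs
open Vale.Agent.P285N.Tp (FLC)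
open Vale.Agent.P285S.B2 (Zr Nu Nh Ba MV SC)
open Vale.Agent.P285S.Mm (Sp)
open Vale.Agent.P285S.Sf (Cz CF2 XD HG)
open Vale.Agent.P270G (Cw Fb ForP TOPB KXC RGN INS)

namespace Vale.Agent.P270F

/-- **CF43** -/
def CF43 : Prop := ∀ T : CT, T.OK → ∀ (Y : Mf 4) (l a : T.H Y), Cz T Y l a → Neg 4 (Tr T Y l) →
  P285S.Ob.CF T Y l a 2 1 → MV T Y l 3

/-- **ENDN** -/
def ENDN : Prop := ∀ d ≤ 3, ForP (d + 1) fun T κ _ _ A m N => FLC T → ∀ (Q Λ : Bd A.Z.X)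
  (Φ : κ → ℕ) (ν : ℕ), Cw A m N → IsLB (d + 1) Q → Tp.Nf A.Z Q → Nu T A.Z (T.c1 A.Z Q) ν → 0 < ν →
  ν ≤ d → (∀ j, m j < 0 → Φ j ≠ 0) → Fb A.Z Λ → Xc.Rig A (fun j => -(Φ j : ℤ)) Λ Q →
  (∀ (u : ℕ) (U : Mf u) (p : U.X → A.Z.X) (hp : HolM u (d + 1) p),
    Nh T A.Z (T.c1 A.Z Q) ν U hp → range p ⊆ Sp A Φ) → Tg.Nc T A.Z (T.c1 A.Z Q) → False

theorem cf43_of (h0 : ∀ T : CT, T.OK → ∀ (Y : Mf 4) (l a : T.H Y), Cp Y →
    P285S.Ob.CF T Y l a 2 1 → CF2 T Y l a) (h1 : XD) (h2 : HG) : CF43 := by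
  intro T hT Y l a cz hTr hF
  obtain ⟨X, π, hπ, h, hX⟩ := h1 T hT _ l a cz (h0 T hT Y l a cz.cp hF)
  obtain ⟨x₀, hx₀⟩ := hX.imm
  obtain ⟨-, dom⟩ := surj T hT _ _ X Y π hπ _ 1 hX.cp.conn cz.cp.conn
    (dg_pow hT (hT.po.deg cz.kc) 4) (by
      rw [mul_one, map_pow]; exact (imm_pos hT hπ hx₀ cz.kc).ne')
  by_contra hV
  exact hX.pos.ne' (nt_of Ct.cuts T hT 4 Y l a cz.nef (hT.po.deg cz.kc) 4 3 X π hπ _ rfl hX.cp.conn
    (dom _ hTr) (by simpa using (mb_pow (bf_pull hT hπ cz.bf) 1).mul (mb_pow hX.bf 2))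
    (by rw [mul_left_comm, (h2 T hT _ X π hπ l a h cz hX).1 hV]))

/-- the dichotomy is impossible if all the null hypersurfaces are contracted -/
theorem end0n (ke : P285S.At.KE) (cf : CF43) {T : CT} (hT : T.OK) (hF : FLC T) {d ν : ℕ}
    (hd : d ≤ 3) {Z : Mf (d + 1)} {L H Λ : Bd Z.X} {S : Set Z.X} (hb : Ba Z L H) (hK : KX Z L H)
    (hν : Nu T Z (T.c1 Z L) ν) (n0 : 0 < ν) (n1 : ν ≤ d) (hΛ : Fb Z Λ) (hS : Neg (d + 1) S)
    (key : ∀ (u : ℕ) (U : Mf u) (p : U.X → Z.X) (hp : HolM u (d + 1) p),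
      Nh T Z (T.c1 Z L) ν U hp → range p ⊆ S ∧
        ∀ j k : ℕ, T.int U (T.pull hp (T.c1 Z L ^ j * T.c1 Z Λ ^ k)) = 0)
    (nc : d + 1 = 4 → ν = 2 → Neg (d + 1) (Tr T Z (T.c1 Z L)) →
      P285S.Ob.CF T Z (T.c1 Z L) (T.c1 Z H) 2 1 → MV T Z (T.c1 Z L) 2) : False := by
  have cZ : Cp Z := ⟨hb.conn, _, lb_mul (lb_pow hb.lL 0) hb.lA, hb.pos 0⟩
  have nl := DescX.nef hT hb.lL hb.lA hb.pos
  have kH : T.Kc Z (T.c1 Z H) := by simpa using DescX.kc hT hb.lL hb.lA (hb.pos 0)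
  obtain ⟨a, ha, he⟩ := hΛ.kc hT hb.conn
  have nΛ := bf_nf hT (hΛ.bf T)
  have mv : ¬ MV T Z (T.c1 Z L) ν := fun h => by
    obtain ⟨u, U, p, hp, e, cU, im, ⟨x, hx⟩, z⟩ := h S hS
    exact hx ((key u U p hp ⟨e, cU, im, z⟩).1 (mem_range_self x))
  have sc : ¬ SC T Z (T.c1 Z L) ν := fun h => P285S.B2.sxn T hT _ Z _ _ a ν cZ nl hν.1 (hΛ.bf T)
    ha he (fun u U p hp k => (key u U p hp k).2) (P285S.B2.sc_sx hT hν.2 cZ n0 h)
  have ne : ¬ NE T Z (T.c1 Z L) := fun ⟨F, p, hp, μ, c1, c2, c3, c4, c5⟩ => by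
    obtain ⟨c, hc, -⟩ := Ps.fub1 hT cZ.conn cZ.prj.kah hp
    refine sc ⟨F, p, hp, _, 0, μ, ⟨c1, c2⟩, c3, c4, c5, Ps.ef_zero hT, sub_zero _, fun y hy => ?_⟩
    rw [smul_mul_assoc, map_smul, ← map_mul, ← mul_assoc, ← pow_succ', hc, hν.2 y hy, mul_zero,
      smul_zero]
  have ps : ∀ w, T.Kc Z w → 0 < T.int Z (T.c1 Z L * w ^ d) := fun w hw =>
    (mn_int hT (nl.mn.mul ((kc_nf hT hw).mn.pow d))).lt_of_ne' fun k => hν.1 fun y hy => by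
      obtain ⟨t, rfl⟩ := Nat.exists_eq_add_of_le' n0
      have := P285S.B2.zr_of hT (e := 1) hw (fun y hy => by simpa using mn_int hT hy) nl.mn
        (by simpa using nf_dg hT nl) (add_comm 1 d) (by rwa [one_mul]) _ ((nl.mn.pow t).mul hy)
      rwa [one_mul, ← mul_assoc, ← pow_succ'] at this
  rcases (show ν = 1 ∨ 2 ≤ ν by omega) with rfl | n2
  · obtain ⟨n, rfl⟩ := Nat.exists_eq_add_of_le' n1
    exact ne (o1 T hT n Z L H ⟨hb.conn, hb.lL, hb.lA, hb.pos, hν.2 _ ((kc_nf hT kH).mn.pow n),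
      ps _ kH⟩ hb.bA hb.bL hK)
  by_cases hN : Neg (d + 1) (Tr T Z (T.c1 Z L))
  · refine (ke T hT hF d Z L H ν _ hb (kuy _ Z L H cZ.prj hb.lL hb.lA hK) hN hν n0
      (Nat.lt_succ_of_le n1) (hΛ.bf T) ((mn_int hT (nl.mn.mul (nΛ.mn.pow d))).lt_of_ne' fun k =>
        (ps a ha).ne' ?_) fun u U p hp k => by simpa using (key u U p hp k).2 0 d).elim
      (fun h => ?_) sc
    · rw [mul_comm] at k ⊢
      exact domp hT (le_of_ef hT zero_le_one (by rwa [one_smul])) (kc_nf hT ha) nΛ d nl.mn k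
    refine (P285S.Ob.ca_mv hT nl kH (by omega) h).elim mv fun ⟨e, k⟩ => mv ?_
    rcases (show ν = 2 ∨ ν = 3 by omega) with rfl | rfl
    · exact nc e rfl hN k
    · obtain rfl : d = 3 := by omega
      exact cf T hT Z _ _ ⟨cZ, nl, kH, H, hb.lA, hb.bA, rfl⟩ hN k
  rcases P285S.E3.nvb3 T hT _ Z L H ν (by omega) hb hK hN hν n2 with h | h | h | ⟨rfl, h⟩
  exacts [ne h, mv h, sc h, by
    obtain ⟨u, U, p, hp, e, cU, z, k⟩ := h Z _ _ modif_id _ cZ.prj (hΛ.bf T) (hΛ.vol hT hb.conn)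
    rw [hT.rg.pull_id] at z k
    refine k.ne' ?_
    by_cases im : ∃ x, Imm u (d + 1) p x
    · simpa using (key u U p hp ⟨e, cU, im, z⟩).2 1 (d + 1 - 2)
    · exact Ps.van0 hT hp (not_exists.1 im) _]

open P270G.EndH in
theorem endn_of (ke : P285S.At.KE) (cf : CF43) (h2 : TOPB) (h3 : KXC) (h4 : RGN) (h5 : INS) :
    ENDN := by
  intro d hd T hT κ ι _ A m N hF Q Λ Φ ν cw lQ nQ nu n0 n1 neg fb rig cov nc
  obtain ⟨H, C, a1, a2, a3⟩ := h2 _ T hT κ ι A m N _ m Λ Q cw.ok fb lQ rig fun l hl => by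
    have := neg l hl
    omega
  obtain ⟨r, H', hr, ba, kx⟩ := h3 _ T hT κ ι A m N Q H C cw lQ nQ a1 a2 a3
  have r1 : (0 : ℝ) < r := Nat.cast_pos.2 hr
  have r0 := r1.ne'
  have eP := hT.c1.pow A.Z Q r lQ
  have nq := nf_of hT cw.ok.prj lQ nQ
  have nΛ := bf_nf hT (fb.bf T)
  refine end0n (ν := ν) (S := Sp A Φ) ke cf hT hF hd ba kx ?_ n0 n1 fb ?_
    (fun u U p hp h => ?_) fun e e' t k => ?_
  · rw [eP]
    exact ⟨mt (zr_smul r0 ν).1 nu.1, (zr_smul r0 _).2 nu.2⟩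
  · exact (snc_thin_off cw.ok.snc).neg.mono fun x ⟨l, _, hl⟩ c => c l hl
  · have hS := cov u U p hp ⟨h.dim, h.cp, h.imm, fun y hy => by
      have := h.nul y hy
      rwa [eP, smul_pow, smul_mul_assoc, map_smul, map_smul, smul_eq_mul, mul_eq_zero,
        or_iff_right (pow_ne_zero ν r0)] at this⟩
    refine ⟨hS, fun j k => ?_⟩
    obtain rfl : u = d := (Nat.succ_injective h.dim).symm
    have dz := dg_mul hT (dg_pow hT (hT.c1.deg A.Z Λ) k) (dg_pow hT (hT.c1.deg A.Z Q) j)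
    rw [eP, smul_pow, smul_mul_assoc, map_smul, map_smul, mul_comm]
    by_cases e : k + j = u
    · rw [h5 u T hT κ ι A m N U p hp _ cw.ok h.cp ((nΛ.mn.pow k).mul (nq.mn.pow j))
        (by rwa [e] at dz) fun x hx => ?_, smul_zero]
      obtain ⟨l, l1, l2⟩ := hS hx
      exact ⟨l, h4 u T hT κ ι A m N _ Λ Q l k j cw.ok fb lQ nQ rig (by omega) e, l2⟩
    · rw [dg_int hT (dg_pull hT hp dz) e, smul_zero]
  · subst e'
    have kH : T.Kc A.Z (T.c1 A.Z H') := by simpa using DescX.kc hT ba.lL ba.lA (ba.pos 0)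
    rw [eP] at t k ⊢
    intro S hS
    obtain ⟨u, U, p, hp, b1, b2, b3, b4, b5⟩ := nc r _ r1 kH e nu (t.mono
      fun y ⟨C, f, hf, b1, b2, b3, b4⟩ => ⟨C, f, hf, b1, b2, b3, by
        rw [map_smul, map_smul, b4, smul_zero]⟩) k S hS
    exact ⟨u, U, p, hp, b1, b2, b3, b4, fun y hy => by
      rw [smul_pow, smul_mul_assoc, map_smul, map_smul, b5 y hy, smul_zero]⟩

end Vale.Agent.P270F
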