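import Vale.Agent.P270F.Endn
import Vale.Agent.P270G.All
import Vale.Agent.P285S.At.All
import Vale.Agent.P285S.Sf.All

/-!
# P270F: the end of the proof on the last model, with no hypotheses
-/

open Vale.Agent.P270G Vale.Agent.P285S

namespace Vale.Agent.P270F

theorem cf43 : CF43 := cf43_of Sf.cff Sf.xd Sf.hg

theorem endn : ENDN := endn_of At.ke cf43 topb kxc rgn (ins_of nzu)

end Vale.Agent.P270F
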