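import Vale.Agent.P270G.Defs
import Vale.Agent.P285S.Bs2.Ends

/-!
# P270F: null hypersurfaces, in all dimensions
-/

open scoped Manifold ContDiff Topology
open Set Filter Function
open Vale.Agent.P272.K Vale.Agent.P285.H281.FD Vale.Agent.P281Z Vale.Agent.P280Z
open Vale.Agent.P277Z (at_chart)
open Vale.Agent.P285N Vale.Agent.P285W.J Vale.Agent.P285W.Bs
open Vale.Agent.P285S.B2 (Zr Nu Nh kah_of)
open Vale.Agent.P270G (Nl Nz)

noncomputable section

namespace Vale.Agent.P270F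

variable {T : CT} (hT : T.OK) {n d ν : ℕ} {Z Y : Mf n} {U : Mf d}

include hT

/-- the image of a null hypersurface under a modification -/
theorem nh_up {π : Y.X → Z.X} {B : Set Z.X} (hπ : Modif n π B) {l : T.H Z} {p : U.X → Y.X}
    {hp : HolM d n p} (hN : Nh T Y (T.pull hπ.hol l) ν U hp) {x : U.X} (k : π (p x) ∉ B) :
    Nh T Z l ν U (hπ.hol.comp hp) := by
  obtain ⟨y, y1, y2⟩ := ((((nim _ _ U Y p hN.cp.conn hp).1 hN.imm).freq x).and_eventually
    ((hπ.hol.comp hp).cont.continuousAt.eventually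
      (hπ.thin.closed.isOpen_compl.mem_nhds k))).exists
  exact ⟨hN.dim, hN.cp, ⟨y, .comp (hπ.hol.at _) (hp.at _) (hπ.imm y2) (not_not.1 y1)⟩,
    fun z hz => by
      rw [hT.rg.pull_comp hp hπ.hol _ fun _ => rfl, map_mul, map_pow]
      exact hN.nul _ (mn_pull hT hπ.hol hz)⟩

/-- a hypersurface in the boundary which is killed by `z` lies in a component killed by `z` -/
theorem nz_of {κ ι : Type} [Fintype κ] {A : Pr (d + 1) κ ι} {m : κ → ℤ} {N : ℕ} (hA : A.Ok m N)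
    (cn : ∀ l, IsConnected (A.G l)) {p : U.X → A.Z.X} (hp : HolM d (d + 1) p)
    (cU : ConnectedSpace U.X) (hi : ∃ x, Imm d (d + 1) p x) (h : range p ⊆ (off A.G)ᶜ)
    {z : T.H A.Z} (h0 : T.int U (T.pull hp z) = 0) : range p ⊆ Nz T A z := by
  obtain ⟨k, hk⟩ : ∃ k, ∀ x, p x ∈ A.G k := by
    by_contra c
    push Not at c
    refine (Thin.iUnion fun k => Thin.pre_of_ex (snc_thin hA.snc k).1 hp (c k)).ne_univ
      (eq_univ_of_forall fun x => ?_)
    simpa [off] using h ⟨x, rfl⟩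
  rintro _ ⟨x, rfl⟩
  refine ⟨k, fun O σ hO => ?_, hk x⟩
  have h1 : {x | ¬ NZ O σ x} = A.G k := Set.ext fun x => (hO.lb.cover x).elim fun a ha =>
    (Ld.not_nz hO.lb hO.sec ha).trans (hO.leq a x ha).mem
  obtain ⟨E, i, hc⟩ := Ld.BerH.cut (n := d) hO.lb hO.sec fun y => (hO.lb.cover y).elim
    fun a ha => ⟨a, _, ha, at_chart y, ((hO.leq a y ha).2 _ (at_chart y)).2⟩
  obtain ⟨q, hq, e⟩ := hc.emb.lift hp fun z => h1 ▸ hk z
  obtain rfl : p = fun z => i (q z) := funext fun z => (e z).symm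
  obtain ⟨c, c1, c2⟩ := Ps.fub1 hT (hc.emb.conn.2 (h1 ▸ cn k))
    (kah_of hT (prj_of_imm hT hc.emb.hol hc.emb.imm hA.prj)) hq
  obtain ⟨y, hy⟩ := hi
  rw [hT.rg.pull_comp hq hc.emb.hol _ fun _ => rfl, c1, ← hT.pl hc] at h0
  exact (mul_eq_zero.1 h0).resolve_left (c2 y (hy.of_comp (hc.emb.hol.at _) (hq.at _))).ne'

/-- a null hypersurface in the boundary lies in a null component -/
theorem nh_one {κ ι : Type} [Fintype κ] {A : Pr (d + 1) κ ι} {m : κ → ℤ} {N : ℕ} (hA : A.Ok m N)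
    (cn : ∀ l, IsConnected (A.G l)) {l y : T.H A.Z} {p : U.X → A.Z.X} {hp : HolM d (d + 1) p}
    (hN : Nh T A.Z l ν U hp) (h : range p ⊆ (off A.G)ᶜ) (hy : Mn T A.Z y) :
    range p ⊆ Nz T A (l ^ ν * y) :=
  nz_of hT hA cn hp hN.cp.conn hN.imm h (hN.nul y hy)

/-- adding an effective divisor -/
theorem nh_two {l : T.H Z} {δ : ℝ} {D : Bd Z.X} {s : D.ι → Z.X → ℂ} (nl : Nf T Z l) (δ0 : 0 < δ)
    (h1 : IsLB n D) (h2 : IsSec n D s) (nl' : Nf T Z (δ • l + T.c1 Z D)) {p : U.X → Z.X}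
    {hp : HolM d n p} (hN : Nh T Z (δ • l + T.c1 Z D) ν U hp) {x : U.X} (k : NZ D s (p x)) :
    Nh T Z l ν U hp := by
  have := hN.cp.conn
  have he := ef_pull hT hp h1 h2 (Thin.pre_of_ex (Ps.an_z h1 h2) hp ⟨x, fun c => c k⟩).neg
  have le : Le T U (T.pull hp l) (T.pull hp (δ • l + T.c1 Z D)) :=
    ⟨δ⁻¹, (inv_pos.2 δ0).le, fun y hy => by
      rw [map_add, map_smul, add_mul, smul_mul_assoc, map_add, map_smul, smul_eq_mul, mul_add,
        inv_mul_cancel_left₀ δ0.ne']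
      exact le_add_of_nonneg_right (mul_nonneg (inv_pos.2 δ0).le (ef_int hT he hy))⟩
  refine ⟨hN.dim, hN.cp, hN.imm, fun y hy => ?_⟩
  have h0 := hN.nul y hy
  rw [map_mul, map_pow] at h0 ⊢
  exact domp hT le (nf_pull hT hp nl) (nf_pull hT hp nl') ν (mn_pull hT hp hy) h0

end Vale.Agent.P270F
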